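import Vale.Agent.P183M.IF3
import Vale.Agent.P183AU.NF
import Vale.Agent.P183WD.Main
import Vale.Agent.P183NC.Node

/-!
The digits of a twisted tensor product form one orbit.
-/

set_option autoImplicit false
set_option linter.all false

namespace Vale.Agent.P183NT

open Matrix Subgroup Vale.Agent.P183M Vale.Agent.P183NK Vale.Agent.P183A Vale.Agent.P183AU

lemma inv_mem_of {Γ A S : Type} [Group Γ] [Finite Γ] [Monoid A] [SetLike S A] [SubmonoidClass S A]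
    (f : Γ →* A) {W : S} {g : Γ} (h : f g ∈ W) : f g⁻¹ ∈ W := by
  have e : g⁻¹ = g ^ (orderOf g - 1) := by
    rw [inv_eq_iff_mul_eq_one, ← pow_succ', Nat.sub_add_cancel (orderOf_pos g), pow_orderOf_eq_one]
  rw [e, map_pow]
  exact pow_mem h _

lemma exists_isP {p : ℕ} (hp : p.Prime) {E G : Type} [Group E] [Finite E] [Group G] (f : E →* G)
    (u : E) (h : IsP p (f u)) : ∃ v, IsP p v ∧ f v = f u := by
  obtain ⟨a, ha⟩ := h
  obtain ⟨b, m, hm, e⟩ := Nat.exists_eq_pow_mul_and_not_dvd (orderOf_pos u).ne' p hp.ne_one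
  have hc : Nat.Coprime (p ^ a) m := ((Nat.Prime.coprime_iff_not_dvd hp).2 hm).pow_left a
  obtain ⟨r, h1, h2⟩ := Nat.chineseRemainder hc 1 0
  refine ⟨u ^ r, ⟨b, ?_⟩, ?_⟩
  · obtain ⟨s, rfl⟩ := (Nat.modEq_zero_iff_dvd).1 h2
    rw [← pow_mul, show m * s * p ^ b = p ^ b * m * s by ring, ← e, pow_mul, pow_orderOf_eq_one,
      one_pow]
  · rw [map_pow, pow_eq_pow_of_modEq h1 ha, pow_one]

/-- Pairwise commuting pieces permuted by a node are trivial. -/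
lemma pieces {G : Type} [Group G] [Finite G] {H T x b X Z : Subgroup G} (hR : Reg H T x b)
    (hx : x ≤ X) (hXZ : X ≤ Z) (hZ : Z ≤ b) {ι : Type} (K : ι → Subgroup G)
    (h1 : ∀ i, K i ≤ EE H Z) (h2 : ∀ i, Nm (EE H X) (K i))
    (h3 : ∀ i j, K i = K j ∨ Cm (K i) (K j)) (h4 : ∀ h ∈ H, ∀ i, ∃ j, ∀ g ∈ K i, h * g * h⁻¹ ∈ K j)
    {i j : ι} (hi : K i ≠ ⊥) (hj : K j ≠ ⊥) (hc : Cm (K i) (K j)) : False := by
  obtain ⟨hH, hT, -, hA⟩ := hR
  have mX := hH.nomod hx (hXZ.trans hZ)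
  have mZ := hH.nomod (hx.trans hXZ) hZ
  have kT : ∀ i, K i ≤ T := fun i =>
    (h1 i).trans ((EE_mono mZ (hH.nomod (hx.trans (hXZ.trans hZ)) le_rfl) hZ).trans hT)
  have nX : Nm X (⨆ i, K i) := by
    conv_lhs => rw [← sup_EE mX]
    refine Nm.sup_left (fun h hh g hg => ?_) (Nm.iSup h2)
    refine iSup_induction K (C := fun g => h * g * h⁻¹ ∈ ⨆ i, K i) hg (fun i g hg => ?_)
      (by simpa using one_mem _) fun a b ha hb => by
        convert mul_mem ha hb using 1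
        group
    obtain ⟨j, hj⟩ := h4 h hh i
    exact le_iSup K j (hj g hg)
  have l1 : X ⊔ ⨆ i, K i ≤ b := (sup_le hXZ (iSup_le fun i => (h1 i).trans (EE_le mZ))).trans hZ
  have mn := hH.nomod (hx.trans le_sup_left) l1
  obtain ⟨hs, hc'⟩ := hA _ (hx.trans le_sup_left) l1
  rcases le_or_EE_le mn le_sup_right (nX.sup_left (Nm.of_le le_rfl)) with e | e
  · exact hi (le_bot_iff.1 ((le_inf ((le_iSup K i).trans (le_CC e nX)) (kT i)).trans
      (AS.CC_inf mX (hA X hx (hXZ.trans hZ))).le))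
  have key : ∀ i, K i ≠ ⊥ → EE H (X ⊔ ⨆ i, K i) ≤ K i := fun i hi => by
    have n1 : Nm (EE H (X ⊔ ⨆ i, K i)) (K i) := (Nm.iSup_left fun j =>
      (h3 j i).elim (fun e => Nm.of_le e.le) Cm.nm).mono e
    have n2 : Nm (K i) (EE H (X ⊔ ⨆ i, K i)) :=
      (nm_EE _ _).mono ((le_iSup K i).trans le_sup_right)
    have hn : ((K i).subgroupOf (EE H (X ⊔ ⨆ i, K i))).Normal := ⟨fun y hy g => n1 g g.2 y hy⟩
    rcases hs.eq_bot_or_eq_top_of_normal _ hn with e | e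
    · refine absurd (le_bot_iff.1 ((le_inf (cm_iff.1 (cm_iff_comm.2 (le_bot_iff.1 ?_)))
        (kT i)).trans hc'.le)) hi
      exact (le_inf n1.comm_le_left n2.comm_le_right).trans (subgroupOf_eq_bot.1 e).le_bot
    · exact subgroupOf_eq_top.1 e
  exact EE_not_cm mn (hc.mono (key i hi) (key j hj))

section
variable {p : ℕ} [hp : Fact p.Prime] {G : Type} [Group G] {T T' : Subgroup G}

lemma ker_of (C : Cv p T) (θ : C.R →+* kk p) {ω : C.E} (h : tw θ C.D.ρ ω = 1) : C.θ ω = 1 := by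
  have e : ∀ ω, tw θ C.D.ρ ω = 1 → (C.D.ρ ω + -C.D.ρ 1).map θ = 0 := fun ω h => by
    rw [Matrix.map_add _ (map_add θ), Matrix.map_neg _ (map_neg θ), ← tw_apply, ← tw_apply, h,
      map_one, add_neg_cancel]
  have := ((Adj.rho C.cd ω).add (Adj.rho C.cd 1).neg).kill C.cd θ (e ω h) (by
    rw [inv_one]
    exact e _ (by rw [← mul_one (tw θ C.D.ρ ω⁻¹), ← h, ← map_mul, inv_mul_cancel, map_one, h]))
  exact (C.ker ω).2 ⟨1, by rw [one_smul, add_neg_eq_zero.1 this, map_one]⟩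

/-- the elements whose matrices lie in a factor algebra -/
noncomputable def KS (C : Cv p T) (C' : Cv p T') (ψ : C.E →* C'.E) (θ : C'.R →+* kk p)
    (r : Set (C.F0 →+* kk p)) : Subgroup C'.E :=
  { (AA p C.D (C.tt C' ψ θ) r).toSubsemiring.toSubmonoid.comap (tw θ C'.D.ρ) with
    inv_mem' := fun h => inv_mem_of (W := (AA p C.D (C.tt C' ψ θ) r).toSubsemiring.toSubmonoid)
      (tw θ C'.D.ρ) h }

lemma mem_KS {C : Cv p T} {C' : Cv p T'} {ψ : C.E →* C'.E} {θ : C'.R →+* kk p}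
    {r : Set (C.F0 →+* kk p)} {ω : C'.E} :
    ω ∈ KS C C' ψ θ r ↔ tw θ C'.D.ρ ω ∈ AA p C.D (C.tt C' ψ θ) r := Iff.rfl

/-- orbits of the stabiliser of `η` -/
def cl {A B : Type} [CommRing A] [CommRing B] (η : B →+* kk p) (a : A →+* kk p) :
    Set (A →+* kk p) := {b | ∃ j : ℤ, b = sh p j a ∧ sh p j η = η}

lemma cl_eq {A B : Type} [CommRing A] [CommRing B] {η : B →+* kk p} {a b : A →+* kk p}
    (h : b ∈ cl η a) : cl η b = cl η a := by
  obtain ⟨j, rfl, hj⟩ := h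
  ext c
  constructor
  · rintro ⟨i, rfl, hi⟩
    exact ⟨i + j, (sh_add _ _ _).symm, by rw [sh_add, hj, hi]⟩
  · rintro ⟨i, rfl, hi⟩
    refine ⟨i + -j, by rw [sh_add, sh_neg], ?_⟩
    conv_lhs => rw [← hj, sh_add, sh_neg, hi]

lemma cl_cases {A B : Type} [CommRing A] [CommRing B] (η : B →+* kk p) (a b : A →+* kk p) :
    cl η a = cl η b ∨ Disjoint (cl η a) (cl η b) := by
  rw [or_iff_not_imp_right, Set.not_disjoint_iff]
  rintro ⟨c, h1, h2⟩
  rw [← cl_eq h1, cl_eq h2]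

lemma cl_sh {A B : Type} [CommRing A] [CommRing B] (η : B →+* kk p) (a : A →+* kk p) (i : ℤ) :
    sh p i '' cl η a ⊆ cl η (sh p i a) := by
  rintro _ ⟨_, ⟨j, rfl, hj⟩, rfl⟩
  exact ⟨j, sh_comm _ _ _, hj⟩

lemma bar_bar (C : Cv p T) (θ : C.R →+* kk p) : C.bar (C.bar θ) = θ :=
  RingHom.ext fun r => congrArg θ (C.cd.sq r)

lemma exists_shift (C : Cv p T) {φ : C.R ≃+* C.R} (h : ∀ r, φ (C.D.σ r) = C.D.σ (φ r)) : ∃ i : ℤ,
    ∀ ϑ : C.R →+* kk p, (ϑ.comp (φ : C.R →+* C.R)).comp C.D.ι = sh p i (ϑ.comp C.D.ι) := by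
  rcases isEmpty_or_nonempty (C.R →+* kk p) with h0 | ⟨⟨ϑ0⟩⟩
  · exact ⟨0, fun ϑ => h0.elim ϑ⟩
  obtain ⟨i, hi⟩ := sh_trans (p := p) (ϑ0.comp C.D.ι) ((ϑ0.comp (φ : C.R →+* C.R)).comp C.D.ι)
  refine ⟨i, fun ϑ => ?_⟩
  obtain ⟨l, hl⟩ := sh_trans (p := p) (ϑ0.comp C.D.ι) (ϑ.comp C.D.ι)
  rw [hl, sh_comm, ← hi]
  ext t
  obtain ⟨t', ht⟩ := (C.cd.fix (φ (C.D.ι t))).1 (by rw [← h, C.cd.σ_ι])
  have := DFunLike.congr_fun hl t'
  simp only [sh, ac_apply, RingHom.comp_apply, RingHom.coe_coe] at this ⊢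
  rw [ht, this]

lemma one_of (C : Cv p T) {φ : C.R ≃+* C.R} {P P' : Matrix (Fin C.d) (Fin C.d) C.R}
    (h1 : P * P' = 1) (h2 : P' * P = 1) {u v : C.E} (hu : IsP p u) (hv : IsP p v) {c : C.R}
    (e : C.D.ρ v = c • (P * (C.D.ρ u).map φ * P')) : C.D.ρ v = P * (C.D.ρ u).map φ * P' := by
  have k : ∀ n : ℕ, (P * (C.D.ρ u).map φ * P') ^ n = P * (C.D.ρ (u ^ n)).map φ * P' := fun n => by
    induction n with
    | zero => rw [pow_zero, pow_zero, map_one, Matrix.map_one _ (map_zero φ) (map_one φ), mul_one, h1]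
    | succ n ih =>
      rw [pow_succ, ih, pow_succ, map_mul]
      erw [Matrix.map_mul (f := (φ : C.R →+* C.R))]
      simp only [mul_assoc]
      rw [← mul_assoc P', h2, one_mul]
      rfl
  rw [e, C.cd.scal_one hv hu (fun n hn => by
    rw [k, hn, map_one, Matrix.map_one _ (map_zero φ) (map_one φ), mul_one, h1]) e, one_smul]

variable {C : Cv p T} {C' : Cv p T'} {ψ : C.E →* C'.E}

/-- an element of `G` which normalises both groups permutes the factor algebras -/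
lemma perm (hE : EQ) (m : 8 ≤ C.D.m) (m' : 8 ≤ C'.D.m) (hA : C.AT C' ψ) (hO : C.Over C' ψ)
    (hL : C.Lifts) (hL' : C'.Lifts) (θ : C'.R →+* kk p) {h : G} (n : ∀ t ∈ T, h * t * h⁻¹ ∈ T)
    (n' : ∀ t ∈ T', h * t * h⁻¹ ∈ T') : ∃ i j : ℤ, ∀ r, ∀ g ∈ (KS C C' ψ θ r).map C'.θ,
      h * g * h⁻¹ ∈ (KS C C' ψ θ (sh p i '' (sh p j '' r))).map C'.θ := by
  obtain ⟨φ, P, Q, pq, qp, hφ, hc⟩ := hL h n
  obtain ⟨φ', P', Q', pq', qp', hφ', hc'⟩ := hL' h n'
  obtain ⟨i, hi⟩ := exists_shift C hφ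
  obtain ⟨j, hj⟩ := exists_shift C' hφ'
  obtain ⟨V⟩ := hA θ
  refine ⟨-i, j, ?_⟩
  rintro r _ ⟨ω, hω, rfl⟩
  obtain ⟨ω', e'⟩ := C'.exists_θ (n' _ (C'.θ_mem ω))
  refine ⟨ω', ?_, e'⟩
  set θ1 := θ.comp (φ' : C'.R →+* C'.R) with hθ
  have mp : ∀ M : Matrix (Fin C'.d) (Fin C'.d) C'.R,
      (P' * M.map φ' * Q').map θ = P'.map θ * M.map θ1 * Q'.map θ := fun M => by
    rw [Matrix.map_mul, Matrix.map_mul, Matrix.map_map]
    rfl
  have a1 : (C'.D.ρ ω).map θ1 ∈ AA p C.D (C.tt C' ψ θ1) (sh p j '' r) := by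
    have a0 := (hE p G T T' C C' ψ m m' hA θ).2.2.2.2.1 j r ω (mem_KS.1 hω)
    rcases C'.cd.hom_cases (θ := θ1) (θ' := sh p j θ) (hj θ) with e | e
    · rwa [e] at a0
    · rw [e] at a0
      exact (hE p G T T' C C' ψ m m' hA θ1).2.2.2.2.2 _ ω a0
  have a2 : ∀ M ∈ AA p C.D (C.tt C' ψ θ1) (sh p j '' r),
      P'.map θ * M * Q'.map θ ∈ AA p C.D (C.tt C' ψ θ) (sh p (-i) '' (sh p j '' r)) := by
    intro M hM
    induction hM using Algebra.adjoin_induction with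
    | mem x hx =>
      obtain ⟨a, ha, y, rfl⟩ := hx
      have hδ : Function.Injective fun c : V.A => sh p i (V.dg c) := (sh_inj i).comp V.dg_inj
      have e : P'.map θ * CF p C.D (C.tt C' ψ θ1) {a} y * Q'.map θ = V.E (kq
          (fun c : V.A => sh p i (V.dg c)) (fun c => (P * (C.D.Nn y).map φ * Q).map c.1) {a}) := by
        rw [← cf_sum (p := p) {a} fun S => V.E (kq (fun c : V.A => sh p i (V.dg c))
          (fun c => (P * (C.D.Nn y).map φ * Q).map c.1) S)]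
        refine (cf_map (p := p) {a} (fun t => C.tt C' ψ θ1 (C.D.xx y t))
          ((LinearMap.mulRight _ (Q'.map θ)).comp (LinearMap.mulLeft _ (P'.map θ)))).trans
          (congrArg _ (funext fun t => ?_))
        obtain ⟨u, hu⟩ := C.exists_θ (n _ (C.θ_mem (C.D.xx y t)))
        obtain ⟨v, hv, e⟩ := exists_isP hp.out C.θ u
          (hu ▸ ((C.cd.isP_xx y t).map C.θ).conj h)
        obtain ⟨c, e1⟩ := hc _ v (e.trans hu)
        obtain ⟨c', e2⟩ := hc' (ψ (C.D.xx y t)) (ψ v) (by rw [hO, hO, e, hu])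
        have e3 := one_of C pq qp (C.cd.isP_xx y t) hv e1
        have e4 := one_of C' pq' qp' ((C.cd.isP_xx y t).map ψ) (hv.map ψ) e2
        simp only [← map_smul, ← map_sum]
        rw [← kr_exp hδ]
        refine (mp _).symm.trans (e4 ▸ (V.eq' v).trans ?_)
        congr 2
        funext a
        rw [e3, C.cd.ρ_xx, Matrix.map_add _ (map_add φ), Matrix.map_one _ (map_zero φ) (map_one φ),
          Matrix.map_smul' _ _ _ (map_mul φ), mul_add, add_mul, mul_one, pq, mul_smul_comm,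
          smul_mul_assoc, Matrix.map_add _ (map_add _), Matrix.map_one _ (map_zero _) (map_one _),
          Matrix.map_smul' _ _ _ (map_mul _)]
        congr 2
        exact DFunLike.congr_fun (hi a.1) t
      rw [e]
      by_cases h0 : ∃ c : V.A, sh p i (V.dg c) = a
      · obtain ⟨c, rfl⟩ := h0
        rw [kq_single hδ]
        exact AA_mono (Set.singleton_subset_iff.2 (Set.mem_of_eq_of_mem (sh_neg i _).symm
          (Set.mem_image_of_mem _ ha))) (V.j_mem C.cd c _)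
      · rw [kq_neg _ (by simpa using h0), map_zero]
        exact zero_mem _
    | algebraMap c =>
      rw [← Algebra.commutes, mul_assoc, ← Matrix.map_mul, pq',
        Matrix.map_one _ (map_zero _) (map_one _), mul_one]
      exact Subalgebra.algebraMap_mem _ c
    | add x y _ _ hx hy =>
      rw [mul_add, add_mul]
      exact add_mem hx hy
    | mul x y _ _ hx hy =>
      convert mul_mem hx hy using 1
      simp only [mul_assoc]
      rw [← mul_assoc (Q'.map θ), ← Matrix.map_mul, qp', Matrix.map_one _ (map_zero _) (map_one _),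
        one_mul]
  obtain ⟨c, e⟩ := hc' ω ω' e'
  refine mem_KS.2 ?_
  rw [tw_apply, e, Matrix.map_smul' _ _ _ (map_mul θ), mp]
  exact Subalgebra.smul_mem _ (a2 _ a1) _

lemma pp_single {ι B : Type} [Monoid B] (a : ι) (f : ι → B) : pp {a} f = f a := by
  simp [pp]

lemma ne_bot (hE : EQ) (hH : HC) (hN : NP) (m : 8 ≤ C.D.m) (m' : 8 ≤ C'.D.m) (hA : C.AT C' ψ)
    (hq : C'.D.quad → C.D.quad) (θ : C'.R →+* kk p) {e : C.F0 →+* kk p}
    (he : e ∈ Dg p C.D (C.tt C' ψ θ)) :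
    (KS C C' ψ θ (cl (θ.comp C'.D.ι) e)).map C'.θ ≠ ⊥ := by
  classical
  obtain ⟨a, b, c, y, i, j, l, v, hW⟩ := P183WD.wd p _ _ _ _ C.D C.cd m
  let B : (C'.R →+* kk p) → Finset (C.F0 →+* kk p) := fun ϑ => Finset.univ.filter fun a =>
    ∃ j : ℤ, a = sh p j e ∧ sh p j (θ.comp C'.D.ι) = ϑ.comp C'.D.ι
  have hB : ∀ ϑ a, a ∈ B ϑ ↔ ∃ j : ℤ, a = sh p j e ∧ sh p j (θ.comp C'.D.ι) = ϑ.comp C'.D.ι :=
    fun ϑ a => by simp only [B, Finset.mem_filter, Finset.mem_univ, true_and]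
  have hF : ∀ ϑ, Fm {B ϑ} := fun ϑ => ⟨fun S hS => by
      obtain ⟨j, hj⟩ := sh_trans (p := p) (θ.comp C'.D.ι) (ϑ.comp C'.D.ι)
      exact ⟨_, Finset.mem_singleton.1 hS ▸ (hB _ _).2 ⟨j, rfl, hj.symm⟩⟩,
    fun S hS S' hS' h => absurd ((Finset.mem_singleton.1 hS).trans
      (Finset.mem_singleton.1 hS').symm) h⟩
  obtain ⟨M, M', h1, h2, h3, h4, -⟩ := hH p G T T' C C' ψ m m' hA a b c y i j l v hW hq
    (fun ϑ => {B ϑ}) hF (fun ϑ => by
      rw [Finset.image_singleton]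
      congr 1
      ext a
      simp only [Finset.mem_image, hB]
      constructor
      · rintro ⟨j, rfl, hj⟩
        refine ⟨_, ⟨-1 + j, rfl, ?_⟩, by rw [sh_add, sh_neg']⟩
        rw [sh_add, hj, sh_comp, sh_neg]
      · rintro ⟨_, ⟨j, rfl, hj⟩, rfl⟩
        exact ⟨1 + j, (sh_add _ _ _).symm, by rw [sh_add, hj, sh_comp]⟩) fun ϑ => by
      simp only [B, Cv.bar, C'.cd.comp_σ_ι]
  have hc : (B θ : Set _) = cl (θ.comp C'.D.ι) e := Set.ext fun a => hB θ a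
  obtain ⟨V⟩ := hA θ
  have hD : (B θ : Set _) ⊆ Dg p C.D (C.tt C' ψ θ) := fun a ha => by
    obtain ⟨j, rfl, hj⟩ := (hB _ _).1 ha
    have q := hE p G T T' C C' ψ m m' hA θ
    have : sh p j e ∈ Dg p C.D (C.tt C' ψ (sh p j θ)) := q.2.2.1 j ▸ ⟨e, he, rfl⟩
    rcases C'.cd.hom_cases (θ := θ) (θ' := sh p j θ) hj.symm with e | e
    · rwa [e] at this
    · rw [e] at this
      exact q.2.2.2.1 ▸ this
  have g1 : M.map θ ∈ AA p C.D (C.tt C' ψ θ) (B θ) := by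
    have k : ∀ y, CF p C.D (C.tt C' ψ θ) (B θ) y ∈ AA p C.D (C.tt C' ψ θ) (B θ) := fun y =>
      V.cf_eq C.cd _ y ▸ V.KK_mem C.cd y _
    rw [h3, gg, pp_single]
    exact add_mem (one_mem _) (sub_mem (mul_mem (mul_mem (k _) (k _)) (k _))
      (Subalgebra.smul_mem _ (mul_mem (mul_mem (k _) (k _)) (k _)) _))
  have g2 : M'.map θ ∈ AA p C.D (C.tt C' ψ θ) (B θ) :=
    inv_mem_of ((θ.mapMatrix : Matrix (Fin C'.d) (Fin C'.d) C'.R →+* _).toMonoidHom.comp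
      (Units.coeHom _)) (g := ⟨M, M', h1, h2⟩) g1
  obtain ⟨ω, hω⟩ := h4 (ψ (C.D.xx y 1))
  have e1 : tw θ C'.D.ρ ω = M.map θ * C.tt C' ψ θ (C.D.xx y 1) * M'.map θ := by
    rw [tw_apply, hω, Matrix.map_mul, Matrix.map_mul]
    rfl
  intro h0
  have h5 : C'.θ ω = C'.θ (ψ (C.D.xx y 1)) := by
    rw [← mul_inv_eq_one, ← map_inv, ← map_mul, ← mem_bot, ← h0, ← hc]
    refine mem_map_of_mem _ (mem_KS.2 ?_)
    rw [map_mul, e1, ← map_inv, mul_assoc, mul_assoc, ← mul_assoc (C.tt C' ψ θ _)]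
    exact mul_mem g1 (AA_conj g2 _)
  obtain ⟨r, hr⟩ := C'.scal_of h5
  refine (hN p G T C _ _ ⟨V⟩ m a b c y i j l v hW _ (hF θ) _ (Finset.mem_singleton_self _) hD).1
    (θ r) ?_
  rw [← h3, ← smul_mul_assoc, ← mul_one (M.map θ * _), ← Matrix.map_one θ (map_zero _) (map_one _),
    ← h2, Matrix.map_mul, ← mul_assoc, ← e1, tw_apply, hr, Matrix.map_smul' _ _ _ (map_mul θ)]
  rfl

end

theorem nt (hE : EQ) (hH : HC) (hN : NP) : NT := by
  intro p _ G _ _ H T x b X Z hR hx hXZ hZ C C' ψ m m' hA hO hL hL' hq θ e he e' he'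
  by_contra h0
  obtain ⟨V⟩ := hA θ
  have cm : ∀ r r', Disjoint r r' → Cm ((KS C C' ψ θ r).map C'.θ) ((KS C C' ψ θ r').map C'.θ) := by
    rintro r r' h _ ⟨a, ha, rfl⟩ _ ⟨a', ha', rfl⟩
    rw [← mul_inv_eq_one, ← map_mul, ← map_mul, ← map_inv, ← map_mul]
    refine ker_of C' θ ?_
    rw [map_mul, map_mul, (V.AA_comm C.cd h (mem_KS.1 ha) (mem_KS.1 ha')).eq, ← map_mul, ← map_mul, mul_inv_cancel,
      map_one]
  refine pieces hR hx hXZ hZ (fun a => (KS C C' ψ θ (cl (θ.comp C'.D.ι) a)).map C'.θ)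
    (fun a => (map_le_range _ _).trans C'.range.le) (fun a t ht => ?_)
    (fun a a' => (cl_cases _ a a').imp (fun h => by rw [h]) (cm _ _)) (fun h hh a => ?_)
    (ne_bot hE hH hN m m' hA hq θ he) (ne_bot hE hH hN m m' hA hq θ he')
    (cm _ _ ((cl_cases _ e e').resolve_left fun h => h0 ?_))
  · rintro _ ⟨ω, hω, rfl⟩
    obtain ⟨g, rfl⟩ := C.exists_θ ht
    refine ⟨ψ g * ω * ψ g⁻¹, ?_, by rw [map_mul, map_mul, hO, hO, map_inv]⟩
    refine mem_KS.2 ?_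
    rw [map_mul, map_mul]
    exact AA_conj (mem_KS.1 hω) g
  · obtain ⟨i, j, k⟩ := perm hE m m' hA hO hL hL' θ
      (nm_H_EE (hR.1.nomod hx (hXZ.trans hZ)) h hh) (nm_H_EE (hR.1.nomod (hx.trans hXZ) hZ) h hh)
    refine ⟨sh p i (sh p j a), fun g hg => map_mono (fun ω hω => mem_KS.2 (AA_mono ?_ (mem_KS.1 hω)))
      (k _ g hg)⟩
    exact (Set.image_mono (cl_sh _ _ _)).trans (cl_sh _ _ _)
  · exact h.ge ⟨0, (sh_zero _).symm, sh_zero _⟩

end Vale.Agent.P183NT
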